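import Mathlib

/-!
The counting step of Burton-Keane: blocks each separating three exits are at most as many as the
exits. Blocks may be finite connected sets, pairwise disjoint.
-/

namespace Vale.Agent.P151.Amenable

open Finset

variable {W ι : Type}

/-- A walk from `a` to `b` that avoids the set `A`. -/
def Avoid (G : SimpleGraph W) (A : Set W) (a b : W) : Prop :=
  ∃ q : G.Walk a b, ∀ x ∈ q.support, x ∉ A

lemma Avoid.symm {G : SimpleGraph W} {A : Set W} {a b : W} (h : Avoid G A a b) :
    Avoid G A b a := by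
  obtain ⟨q, hq⟩ := h
  exact ⟨q.reverse, fun x hx => hq x (by simpa using hx)⟩

lemma Avoid.trans {G : SimpleGraph W} {A : Set W} {a b c : W} (h : Avoid G A a b)
    (h' : Avoid G A b c) : Avoid G A a c := by
  obtain ⟨q, hq⟩ := h
  obtain ⟨r, hr⟩ := h'
  exact ⟨q.append r, fun x hx => ((SimpleGraph.Walk.mem_support_append_iff _ _).1 hx).elim
    (hq x) (hr x)⟩

/-- A nonempty connected piece of the graph. -/
def Piece (G : SimpleGraph W) (A : Set W) : Prop :=
  A.Nonempty ∧ ∀ a ∈ A, ∀ b ∈ A, ∃ q : G.Walk a b, ∀ x ∈ q.support, x ∈ A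

/-- Some walk leads from `y` to `A` without meeting `B`. -/
def Hits (G : SimpleGraph W) (B A : Set W) (y : W) : Prop := ∃ a ∈ A, Avoid G B y a

lemma hits_all {G : SimpleGraph W} {A B : Set W} (hA : Piece G A) (hd : Disjoint A B) {y a : W}
    (h : Hits G B A y) (ha : a ∈ A) : Avoid G B y a := by
  obtain ⟨a', ha', h⟩ := h
  obtain ⟨q, hq⟩ := hA.2 a' ha' a ha
  exact h.trans ⟨q, fun x hx hxB => Set.disjoint_left.1 hd (hq x hx) hxB⟩

/-- A walk that reaches `A` reaches it avoiding `B`, or reaches `B` avoiding `A`. -/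
lemma hits_dichotomy {G : SimpleGraph W} {A B : Set W} (hd : Disjoint A B) {y a : W}
    (q : G.Walk y a) (ha : a ∈ A) : Hits G B A y ∨ Hits G A B y := by
  induction q with
  | nil => exact Or.inl ⟨_, ha, SimpleGraph.Walk.nil, by
      simpa using Set.disjoint_left.1 hd ha⟩
  | @cons u v w hadj q ih =>
    by_cases huA : u ∈ A
    · exact Or.inl ⟨u, huA, SimpleGraph.Walk.nil, by simpa using Set.disjoint_left.1 hd huA⟩
    by_cases huB : u ∈ B
    · exact Or.inr ⟨u, huB, SimpleGraph.Walk.nil, by simpa using huA⟩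
    rcases ih ha with ⟨x, hx, r, hr⟩ | ⟨x, hx, r, hr⟩
    · exact Or.inl ⟨x, hx, r.cons hadj, by simpa [huB] using hr⟩
    · exact Or.inr ⟨x, hx, r.cons hadj, by simpa [huA] using hr⟩

/-- `B i` separates three exits in `Y`, all connected to it. -/
def Tri (G : SimpleGraph W) (B : ι → Set W) (Y : Finset W) (i : ι) : Prop :=
  ∃ y : Fin 3 → W, (∀ r, y r ∈ Y) ∧ (∀ r, y r ∉ B i) ∧ (∀ r, ∃ a ∈ B i, G.Reachable (y r) a) ∧
    ∀ r s, r ≠ s → ¬ Avoid G (B i) (y r) (y s)

/-- Blocks separating three exits are at most as many as the exits. -/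
theorem card_tri_le [DecidableEq W] (G : SimpleGraph W) (B : ι → Set W) :
    ∀ (Y : Finset W) (T : Finset ι), (∀ i ∈ T, Piece G (B i)) →
      (∀ i ∈ T, ∀ j ∈ T, i ≠ j → Disjoint (B i) (B j)) → (∀ i ∈ T, Tri G B Y i) →
      T.card ≤ Y.card := by
  classical
  intro Y
  induction Y using Finset.strongInduction with
  | H Y ih =>
    intro T hpc hdis htri
    rcases T.eq_empty_or_nonempty with rfl | hne
    · simp
    have key : ∃ i ∈ T, ∃ a ∈ Y, ∃ b ∈ Y, a ≠ b ∧ ∀ j ∈ T, j ≠ i →
        Hits G (B j) (B i) a ∧ Hits G (B j) (B i) b := by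
      let U : ι → W → Finset ι := fun i w =>
        T.filter fun j => j ≠ i ∧ (∃ u ∈ B j, ∃ v ∈ B i, G.Reachable u v) ∧
          ¬ Hits G (B i) (B j) w
      obtain ⟨⟨i, w⟩, hiw, hmin⟩ : ∃ iw : ι × W, iw.1 ∈ T ∧ ∀ jw : ι × W, jw.1 ∈ T →
          (U iw.1 iw.2).card ≤ (U jw.1 jw.2).card := by
        obtain ⟨i, hi⟩ := hne
        obtain ⟨w, -⟩ := (hpc i hi).1
        have hex : ∃ n, ∃ iw : ι × W, iw.1 ∈ T ∧ (U iw.1 iw.2).card = n := ⟨_, (i, w), hi, rfl⟩
        obtain ⟨iw, h1, h2⟩ := Nat.find_spec hex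
        exact ⟨iw, h1, fun jw hjw => h2.le.trans (Nat.find_min' hex ⟨jw, hjw, rfl⟩)⟩
      have hU : U i w = ∅ := by
        by_contra hne'
        obtain ⟨j, hj⟩ := Finset.nonempty_iff_ne_empty.2 hne'
        obtain ⟨hjT, hji, ⟨u, hu, v, hv, huv⟩, hjw⟩ := by simpa [U] using hj
        have hd := hdis i hiw j hjT (Ne.symm hji)
        obtain ⟨v', hv'⟩ := (hpc i hiw).1
        have hsub : U j v' ⊆ (U i w).erase j := by
          intro k hk
          obtain ⟨hkT, hkj, ⟨u', hu', w', hw', hkw⟩, hkv⟩ := by simpa [U] using hk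
          have hki : k ≠ i := fun e => hkv <| by
            subst e
            exact ⟨v', hv', SimpleGraph.Walk.nil, by simpa using Set.disjoint_left.1 hd hv'⟩
          have hconn : G.Reachable u' v := by
            obtain ⟨q, -⟩ := (hpc j hjT).2 w' hw' u hu
            exact (hkw.trans q.reachable).trans huv
          refine Finset.mem_erase.2 ⟨hkj, ?_⟩
          simp only [U, Finset.mem_filter]
          refine ⟨hkT, hki, ⟨u', hu', v, hv, hconn⟩, fun hkiw => hjw ?_⟩
          rcases hits_dichotomy hd hconn.some hv with h | h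
          · exact absurd ⟨u', hu', (hits_all (hpc i hiw) hd h hv').symm⟩ hkv
          · obtain ⟨x, hx, h⟩ := h
            exact ⟨x, hx, (hits_all (hpc k hkT) (hdis k hkT i hiw hki) hkiw hu').trans h⟩
        have hlt := Finset.card_le_card hsub
        rw [Finset.card_erase_of_mem hj] at hlt
        have := hmin (j, v') hjT
        have := Finset.card_pos.2 ⟨j, hj⟩
        simp only at *
        omega
      obtain ⟨y, hyY, hyB, hyc, hys⟩ := htri i hiw
      obtain ⟨r, s, hrs, hr, hs⟩ : ∃ r s, r ≠ s ∧ ¬ Avoid G (B i) (y r) w ∧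
          ¬ Avoid G (B i) (y s) w := by
        by_cases h0 : Avoid G (B i) (y 0) w
        · exact ⟨1, 2, by decide, fun h => hys 0 1 (by decide) (h0.trans h.symm),
            fun h => hys 0 2 (by decide) (h0.trans h.symm)⟩
        by_cases h1 : Avoid G (B i) (y 1) w
        · exact ⟨0, 2, by decide, h0, fun h => hys 1 2 (by decide) (h1.trans h.symm)⟩
        exact ⟨0, 1, by decide, h0, h1⟩
      refine ⟨i, hiw, y r, hyY r, y s, hyY s, fun e => hys r s hrs ?_, fun j hj hji => ?_⟩
      · rw [← e]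
        exact ⟨SimpleGraph.Walk.nil, by simpa using hyB r⟩
      have hd := hdis i hiw j hj (Ne.symm hji)
      have main : ∀ r, ¬ Avoid G (B i) (y r) w → Hits G (B j) (B i) (y r) := by
        intro r hr
        obtain ⟨a, ha, hqa⟩ := hyc r
        rcases hits_dichotomy hd hqa.some ha with h | ⟨x, hx, hx'⟩
        · exact h
        obtain ⟨q, -⟩ := id hx'
        have hnot : ¬ Hits G (B i) (B j) w := fun h' =>
          hr (hx'.trans (hits_all (hpc j hj) hd.symm h' hx).symm)
        have : j ∈ U i w := by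
          simp only [U, Finset.mem_filter]
          exact ⟨hj, hji, ⟨x, hx, a, ha, q.reachable.symm.trans hqa⟩, hnot⟩
        simp [hU] at this
      exact ⟨main r hr, main s hs⟩
    obtain ⟨i, hi, a, ha, b, hb, hab, hfree⟩ := key
    have hrest : ∀ j ∈ T.erase i, Tri G B (Y.erase a) j := by
      intro j hj
      obtain ⟨hji, hjT⟩ := Finset.mem_erase.1 hj
      obtain ⟨y, hyY, hyB, hyc, hys⟩ := htri j hjT
      obtain ⟨hA, hBb⟩ := hfree j hjT hji
      obtain ⟨v, hv⟩ := (hpc i hi).1
      have hd := hdis i hi j hjT (Ne.symm hji)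
      have hab' : Avoid G (B j) a b :=
        (hits_all (hpc i hi) hd hA hv).trans (hits_all (hpc i hi) hd hBb hv).symm
      have hbB : b ∉ B j := by
        obtain ⟨x, -, q, hq⟩ := hBb
        exact hq b q.start_mem_support
      let z : Fin 3 → W := fun r => if y r = a then b else y r
      have hz : ∀ r, y r ∉ B j → Avoid G (B j) (y r) (z r) := fun r hr => by
        simp only [z]
        split_ifs with h
        · rw [h]; exact hab'
        · exact ⟨SimpleGraph.Walk.nil, by simpa using hr⟩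
      refine ⟨z, fun r => ?_, fun r => ?_, fun r => ?_, fun r s hrs h => ?_⟩
      · simp only [z]
        split_ifs with h
        · exact Finset.mem_erase.2 ⟨hab.symm, hb⟩
        · exact Finset.mem_erase.2 ⟨h, hyY r⟩
      · simp only [z]
        split_ifs
        · exact hbB
        · exact hyB r
      · obtain ⟨x, hx, hxr⟩ := hyc r
        obtain ⟨q, -⟩ := hz r (hyB r)
        exact ⟨x, hx, q.reachable.symm.trans hxr⟩
      · exact hys r s hrs (((hz r (hyB r)).trans h).trans (hz s (hyB s)).symm)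
    have h := ih (Y.erase a) (Finset.erase_ssubset ha) (T.erase i)
      (fun j hj => hpc j (Finset.mem_of_mem_erase hj))
      (fun j hj k hk => hdis j (Finset.mem_of_mem_erase hj) k (Finset.mem_of_mem_erase hk)) hrest
    rw [Finset.card_erase_of_mem ha, Finset.card_erase_of_mem hi] at h
    have := Finset.card_pos.2 ⟨a, ha⟩
    omega

end Vale.Agent.P151.Amenable
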