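import Mathlib
import Vale.Agent.P165.Basic

/-!
The configuration off a set of vertices is independent of the edges touching that set.
-/

namespace Vale.Agent.P151.Amenable

open MeasureTheory ProbabilityTheory
open Vale.Agent.P165 (perc allOpen real_allOpen measurableSet_allOpen)

variable {W : Type} {p : unitInterval}

open Classical in
/-- Close every edge touching `B`. -/
noncomputable def off (B : Finset W) (ω : Sym2 W → Bool) : Sym2 W → Bool :=
  fun e => ω e && decide (∀ z ∈ e, z ∉ B)

lemma off_eq_true {B : Finset W} {ω : Sym2 W → Bool} {e : Sym2 W} :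
    off B ω e = true ↔ ω e = true ∧ ∀ z ∈ e, z ∉ B := by
  simp [off]

lemma measurable_off (B : Finset W) : Measurable (off (W := W) B) := by
  refine measurable_pi_lambda _ fun e => ?_
  exact (measurable_of_countable fun b : Bool => b && _).comp (measurable_pi_apply e)

/-- An event off `B` is independent of the edges touching `B`. -/
lemma real_off_inter_allOpen (B : Finset W) {A : Set (Sym2 W → Bool)} (hA : MeasurableSet A)
    (E : Finset (Sym2 W)) (hE : ∀ e ∈ E, ∃ z ∈ e, z ∈ B) :
    (perc W p).real (off B ⁻¹' A ∩ allOpen E) =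
      (perc W p).real (off B ⁻¹' A) * (p : ℝ) ^ E.card := by
  classical
  let m : Sym2 W → MeasurableSpace (Sym2 W → Bool) := fun e =>
    MeasurableSpace.comap (fun ω : Sym2 W → Bool => ω e) inferInstance
  have hi : iIndepFun (fun (e : Sym2 W) (ω : Sym2 W → Bool) => ω e) (perc W p) :=
    iIndepFun_infinitePi (X := fun _ b => b) fun _ => measurable_id
  have hle : ∀ e, m e ≤ MeasurableSpace.pi := fun e => (measurable_pi_apply e).comap_le
  have hind : Indep (⨆ e ∈ {e : Sym2 W | e ∉ E}, m e) (⨆ e ∈ (E : Set (Sym2 W)), m e)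
      (perc W p) :=
    indep_iSup_of_disjoint hle ((iIndepFun_iff_iIndep ..).1 hi)
      (Set.disjoint_left.2 fun e he he' => he he')
  have h1 : MeasurableSet[⨆ e ∈ {e : Sym2 W | e ∉ E}, m e] (off B ⁻¹' A) := by
    refine (@measurable_pi_lambda _ _ _ (⨆ e ∈ {e : Sym2 W | e ∉ E}, m e) _ _ fun e => ?_) hA
    by_cases he : e ∈ E
    · obtain ⟨z, hz, hzB⟩ := hE e he
      have : (fun ω => off B ω e) = fun _ => false := by
        funext ω
        simp only [off, Bool.and_eq_false_iff, decide_eq_false_iff_not]
        exact Or.inr fun h => h z hz hzB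
      rw [this]
      exact measurable_const
    · have h : @Measurable _ _ (⨆ e ∈ {e : Sym2 W | e ∉ E}, m e) _
          (fun ω : Sym2 W → Bool => ω e) :=
        measurable_iff_comap_le.2 (le_iSup₂ (f := fun e (_ : e ∈ {e : Sym2 W | e ∉ E}) => m e) e he)
      exact (measurable_of_countable fun b : Bool => b && _).comp h
  have h2 : MeasurableSet[⨆ e ∈ (E : Set (Sym2 W)), m e] (allOpen E) := by
    have : allOpen E = ⋂ e ∈ E, (fun ω : Sym2 W → Bool => ω e) ⁻¹' {true} := by
      ext ω; simp [allOpen]
    rw [this]
    refine Finset.measurableSet_biInter E fun e he => ?_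
    exact le_iSup₂ (f := fun e (_ : e ∈ (E : Set (Sym2 W))) => m e) e he _
      ⟨{true}, measurableSet_singleton _, rfl⟩
  have h := (Indep_iff _ _ _).1 hind _ _ h1 h2
  rw [measureReal_def, h, ENNReal.toReal_mul, ← measureReal_def, ← measureReal_def, real_allOpen]

end Vale.Agent.P151.Amenable
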