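import Mathlib
import Vale.Agent.P165.Basic
import Vale.Agent.P151.Amenable.Branch
import Vale.Agent.P151.Amenable.Indep

/-!
Burton-Keane on an amenable Cayley graph: at most two infinite clusters.
-/

namespace Vale.Agent.P151.Amenable

open MeasureTheory SimpleGraph
open Vale.Agent.P165 (perc openGraph conn toInf allOpen real_allOpen openGraph_map_iso
  measurableSet_conn measurableSet_toInf measurableSet_allOpen openGraph_le)
open scoped ENNReal

variable {Γ : Type} (H : SimpleGraph Γ) {p : unitInterval}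

/-- Three infinite clusters, pairwise distinct. -/
def three : Set (Sym2 Γ → Bool) :=
  ⋃ x : Fin 3 → Γ, (⋂ r, toInf H (x r)) ∩ ⋂ r, ⋂ s, ⋂ (_ : r ≠ s), (conn H (x r) (x s))ᶜ

/-- In a configuration: three vertices next to `B`, in distinct infinite clusters. -/
def branch (B : Finset Γ) : Set (Sym2 Γ → Bool) :=
  ⋃ a : Fin 3 → Γ, ⋃ (_ : ∀ r, a r ∉ B ∧ ∃ b ∈ B, H.Adj b (a r)),
    (⋂ r, toInf H (a r)) ∩ ⋂ r, ⋂ s, ⋂ (_ : r ≠ s), (conn H (a r) (a s))ᶜ

lemma measurableSet_three [Countable Γ] [H.LocallyFinite] : MeasurableSet (three H) :=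
  MeasurableSet.iUnion fun x => (MeasurableSet.iInter fun r => measurableSet_toInf (x r)).inter
    (MeasurableSet.iInter fun _ => MeasurableSet.iInter fun _ => MeasurableSet.iInter fun _ =>
      (measurableSet_conn _ _).compl)

lemma measurableSet_branch [Countable Γ] [H.LocallyFinite] (B : Finset Γ) :
    MeasurableSet (branch H B) :=
  MeasurableSet.iUnion fun x => MeasurableSet.iUnion fun _ =>
    (MeasurableSet.iInter fun r => measurableSet_toInf (x r)).inter
      (MeasurableSet.iInter fun _ => MeasurableSet.iInter fun _ => MeasurableSet.iInter fun _ =>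
        (measurableSet_conn _ _).compl)

variable {H}

/-- Connection off `B` is a walk avoiding `B`. -/
lemma reachable_off {B : Finset Γ} {ω : Sym2 Γ → Bool} {x y : Γ} (hx : x ∉ B) :
    (openGraph H (off B ω)).Reachable x y ↔ Avoid (openGraph H ω) (B : Set Γ) x y := by
  constructor
  · rintro ⟨q⟩
    induction q with
    | nil => exact ⟨Walk.nil, by simpa using hx⟩
    | @cons u v w h q ih =>
      obtain ⟨hv, hw⟩ := off_eq_true.1 h.2
      obtain ⟨r, hr⟩ := ih (hw v (Sym2.mem_mk_right u v))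
      refine ⟨r.cons ⟨h.1, hv⟩, fun z hz => ?_⟩
      rcases List.mem_cons.1 ((Walk.support_cons _ _) ▸ hz) with rfl | hz
      · simpa using hx
      · exact hr z hz
  · rintro ⟨q, hq⟩
    induction q with
    | nil => exact Reachable.refl _
    | @cons u v w h q ih =>
      simp only [Walk.support_cons, List.mem_cons, forall_eq_or_imp, Finset.mem_coe] at hq
      have hv : v ∉ B := by simpa using hq.2 v q.start_mem_support
      refine (Adj.reachable (G := openGraph H (off B ω)) ⟨h.1, off_eq_true.2 ⟨h.2, ?_⟩⟩).trans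
        (ih hv (by simpa using hq.2))
      simp only [Sym2.mem_iff, forall_eq_or_imp, forall_eq]
      exact ⟨hx, hv⟩

lemma openGraph_off_le (B : Finset Γ) (ω : Sym2 Γ → Bool) :
    openGraph H (off B ω) ≤ openGraph H ω := fun _ _ h => ⟨h.1, (off_eq_true.1 h.2).1⟩

/-- A walk ending outside `B` is split at its last visit to `B`. -/
lemma last_visit (B : Finset Γ) {ω : Sym2 Γ → Bool} :
    ∀ {x u : Γ}, (openGraph H ω).Walk x u → u ∉ B →
      (x ∉ B ∧ (openGraph H (off B ω)).Reachable x u) ∨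
        ∃ a, (a ∉ B ∧ ∃ b ∈ B, H.Adj b a) ∧ (openGraph H ω).Reachable x a ∧
          (openGraph H (off B ω)).Reachable a u := by
  intro x u q hu
  induction q with
  | nil => exact Or.inl ⟨hu, Reachable.refl _⟩
  | @cons x v w h q ih =>
    rcases ih hu with ⟨hv, hvw⟩ | ⟨a, ha, hva, haw⟩
    · by_cases hx : x ∈ B
      · exact Or.inr ⟨v, ⟨hv, x, hx, h.1⟩, h.reachable, hvw⟩
      · refine Or.inl ⟨hx, (Adj.reachable (G := openGraph H (off B ω))
          ⟨h.1, off_eq_true.2 ⟨h.2, ?_⟩⟩).trans hvw⟩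
        simp only [Sym2.mem_iff, forall_eq_or_imp, forall_eq]
        exact ⟨hx, hv⟩
    · exact Or.inr ⟨a, ha, h.reachable.trans hva, haw⟩

/-- An infinite cluster through `B` leaves an infinite cluster next to `B`. -/
lemma exists_infinite_branch [H.LocallyFinite] {B : Finset Γ} {ω : Sym2 Γ → Bool} {x : Γ}
    (hxB : x ∈ B) (hx : ω ∈ toInf H x) :
    ∃ a, (a ∉ B ∧ ∃ b ∈ B, H.Adj b a) ∧ (openGraph H ω).Reachable x a ∧
      off B ω ∈ toInf H a := by
  classical
  by_contra hne
  simp only [not_exists, not_and] at hne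
  let N : Finset Γ := B.biUnion fun b => H.neighborFinset b
  have hN : ∀ a ∈ {a ∈ (N : Set Γ) | a ∉ B ∧ (openGraph H ω).Reachable x a},
      {u | (openGraph H (off B ω)).Reachable a u}.Finite := by
    rintro a ⟨haN, haB, hxa⟩
    obtain ⟨b, hb, hba⟩ := Finset.mem_biUnion.1 haN
    have := hne a ⟨haB, b, hb, by simpa using hba⟩ hxa
    simpa [toInf] using this
  apply hx
  refine (B.finite_toSet.union (Set.Finite.biUnion (N.finite_toSet.subset fun a ha => ha.1) hN)).subset
    fun u hu => ?_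
  by_cases huB : u ∈ B
  · exact Or.inl huB
  rcases last_visit B hu.some huB with ⟨h, -⟩ | ⟨a, ⟨haB, b, hb, hba⟩, hxa, hau⟩
  · exact absurd hxB h
  · exact Or.inr (Set.mem_biUnion (x := a)
      ⟨Finset.mem_biUnion.2 ⟨b, hb, by simpa using hba⟩, haB, hxa⟩ hau)

/-- Three infinite clusters meeting `B` give a branch point at `B`. -/
lemma three_subset [H.LocallyFinite] (hc : H.Connected) :
    three H ⊆ ⋃ B : Finset Γ, ⋃ (_ : Piece H (B : Set Γ)), off B ⁻¹' branch H B := by
  classical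
  intro ω hω
  obtain ⟨x, hx1, hx2⟩ := Set.mem_iUnion.1 hω
  simp only [Set.mem_iInter] at hx1 hx2
  obtain ⟨q1⟩ := hc.preconnected (x 0) (x 1)
  obtain ⟨q2⟩ := hc.preconnected (x 0) (x 2)
  let B : Finset Γ := q1.support.toFinset ∪ q2.support.toFinset
  have hmem : ∀ r, x r ∈ B := by
    intro r
    fin_cases r <;> simp [B]
  have key : ∀ b ∈ B, ∃ q : H.Walk (x 0) b, ∀ z ∈ q.support, z ∈ B := by
    intro b hb
    rcases Finset.mem_union.1 hb with h | h
    · rw [List.mem_toFinset] at h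
      exact ⟨q1.takeUntil b h, fun z hz => Finset.mem_union_left _
        (List.mem_toFinset.2 (q1.support_takeUntil_subset_support h hz))⟩
    · rw [List.mem_toFinset] at h
      exact ⟨q2.takeUntil b h, fun z hz => Finset.mem_union_right _
        (List.mem_toFinset.2 (q2.support_takeUntil_subset_support h hz))⟩
  have hB : Piece H (B : Set Γ) := by
    refine ⟨⟨x 0, hmem 0⟩, fun a ha b hb => ?_⟩
    obtain ⟨qa, hqa⟩ := key a ha
    obtain ⟨qb, hqb⟩ := key b hb
    refine ⟨qa.reverse.append qb, fun z hz => ?_⟩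
    rcases (Walk.mem_support_append_iff _ _).1 hz with h | h
    · exact hqa z (by simpa using h)
    · exact hqb z h
  choose a ha hxa hinf using fun r => exists_infinite_branch (hmem r) (hx1 r)
  refine Set.mem_iUnion.2 ⟨B, Set.mem_iUnion.2 ⟨hB, Set.mem_iUnion.2 ⟨a, Set.mem_iUnion.2 ⟨ha, ?_⟩⟩⟩⟩
  simp only [Set.mem_inter_iff, Set.mem_iInter, Set.mem_compl_iff]
  exact ⟨hinf, fun r s hrs h => hx2 r s hrs
    (((hxa r).trans (h.mono (openGraph_off_le B ω))).trans (hxa s).symm)⟩

/-- A walk from inside `F` to outside has a first exit. -/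
lemma first_exit {G : SimpleGraph Γ} (hG : G ≤ H) (F : Finset Γ) :
    ∀ {x u : Γ}, G.Walk x u → x ∈ F → u ∉ F →
      ∃ y, y ∉ F ∧ (∃ z ∈ F, H.Adj z y) ∧ G.Reachable x y := by
  intro x u q hx hu
  induction q with
  | nil => exact absurd hx hu
  | @cons x v w h q ih =>
    by_cases hv : v ∈ F
    · obtain ⟨y, hy, hz, hr⟩ := ih hv hu
      exact ⟨y, hy, hz, h.reachable.trans hr⟩
    · exact ⟨v, hv, ⟨x, hx, hG h⟩, h.reachable⟩

/-- The branch event at `B`, with all edges at `B` open. -/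
def block (H : SimpleGraph Γ) (B : Finset Γ) (E : Finset (Sym2 Γ)) : Set (Sym2 Γ → Bool) :=
  off B ⁻¹' branch H B ∩ allOpen E

/-- A translated block separates three exits of any finite set containing it. -/
lemma tri_of_block {ι : Type} {B : Finset Γ} {E : Finset (Sym2 Γ)}
    (hE : ∀ b ∈ B, ∀ u, H.Adj b u → s(b, u) ∈ E) (φ : H ≃g H) {ω : Sym2 Γ → Bool}
    (hω : (fun e => ω (Sym2.map φ e)) ∈ block H B E) {F Y : Finset Γ}
    (hBF : ∀ b ∈ B, φ b ∈ F) (hY : ∀ z ∈ F, ∀ u, H.Adj z u → u ∉ F → u ∈ Y)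
    (hB : Piece H (B : Set Γ)) (C : ι → Set Γ) (i : ι) (hC : C i = φ '' (B : Set Γ)) :
    Piece (openGraph H ω) (C i) ∧ Tri (openGraph H ω) C Y i := by
  classical
  obtain ⟨hbr, hopen⟩ := hω
  obtain ⟨a, ha⟩ := Set.mem_iUnion.1 hbr
  obtain ⟨haB, ha⟩ := Set.mem_iUnion.1 ha
  simp only [Set.mem_inter_iff, Set.mem_iInter, Set.mem_compl_iff] at ha
  obtain ⟨hainf, hasep⟩ := ha
  set ω' : Sym2 Γ → Bool := fun e => ω (Sym2.map φ e) with hω'
  let ψ : openGraph H ω' ≃g openGraph H ω :=
    { toEquiv := φ.toEquiv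
      map_rel_iff' := by
        intro a b
        simp [openGraph, hω', φ.map_adj_iff] }
  have hψ : ∀ z, ψ z = φ z := fun _ => rfl
  have hav : ∀ {u v : Γ}, u ∉ B → ((openGraph H (off B ω')).Reachable u v ↔
      Avoid (openGraph H ω) (φ '' (B : Set Γ)) (φ u) (φ v)) := by
    intro u v hu
    rw [reachable_off hu]
    constructor
    · rintro ⟨q, hq⟩
      refine ⟨(q.map ψ.toHom).copy (hψ u) (hψ v), fun z hz => ?_⟩
      simp only [Walk.support_copy, Walk.support_map, List.mem_map] at hz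
      obtain ⟨w, hw, rfl⟩ := hz
      rintro ⟨b, hb, e⟩
      exact hq w hw (φ.injective e ▸ hb)
    · rintro ⟨q, hq⟩
      refine ⟨(q.map ψ.symm.toHom).copy (ψ.symm_apply_apply u) (ψ.symm_apply_apply v),
        fun z hz hzB => ?_⟩
      simp only [Walk.support_copy, Walk.support_map, List.mem_map] at hz
      obtain ⟨w, hw, rfl⟩ := hz
      exact hq w hw ⟨_, hzB, ψ.apply_symm_apply w⟩
  have hopen' : ∀ b ∈ B, ∀ u, H.Adj b u → (openGraph H ω).Adj (φ b) (φ u) := fun b hb u h =>
    ⟨φ.map_adj_iff.2 h, by simpa [hω'] using hopen _ (hE b hb u h)⟩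
  constructor
  · rw [hC]
    refine ⟨hB.1.image _, ?_⟩
    rintro _ ⟨b, hb, rfl⟩ _ ⟨c, hc, rfl⟩
    obtain ⟨q, hq⟩ := hB.2 b hb c hc
    clear hc
    induction q with
    | @nil u => exact ⟨Walk.nil, fun z hz => by
        rw [List.mem_singleton.1 hz]
        exact Set.mem_image_of_mem φ hb⟩
    | @cons u v w h q ih =>
      simp only [Walk.support_cons, List.mem_cons, forall_eq_or_imp] at hq
      obtain ⟨r, hr⟩ := ih (hq.2 v q.start_mem_support) hq.2
      refine ⟨r.cons (hopen' u hq.1 v h), fun z hz => ?_⟩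
      rcases List.mem_cons.1 ((Walk.support_cons _ _) ▸ hz) with rfl | hz
      · exact Set.mem_image_of_mem φ hq.1
      · exact hr z hz
  · have hexit : ∀ r, ∃ y ∈ Y, y ∉ φ '' (B : Set Γ) ∧
        Avoid (openGraph H ω) (φ '' (B : Set Γ)) (φ (a r)) y := by
      intro r
      obtain ⟨u, hu, huF⟩ := (hainf r).exists_notMem_finset (F.preimage φ φ.injective.injOn)
      have hua : Avoid (openGraph H ω) (φ '' (B : Set Γ)) (φ (a r)) (φ u) := (hav (haB r).1).1 hu
      have huF' : φ u ∉ F := by simpa using huF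
      by_cases har : φ (a r) ∈ F
      · obtain ⟨q⟩ := hu
        obtain ⟨y, hy, ⟨z, hz, hzy⟩, hr⟩ := first_exit (H := H)
          (G := openGraph H (off B ω')) (openGraph_le _) (F.preimage φ φ.injective.injOn) q
          (by simpa using har) huF
        refine ⟨φ y, hY (φ z) (by simpa using hz) (φ y) (φ.map_adj_iff.2 hzy) (by simpa using hy),
          ?_, (hav (haB r).1).1 hr⟩
        rintro ⟨b, hb, e⟩
        exact (by simpa using hy : φ y ∉ F) (e ▸ hBF b hb)
      · obtain ⟨b, hb, hba⟩ := (haB r).2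
        refine ⟨φ (a r), hY (φ b) (hBF b hb) _ (φ.map_adj_iff.2 hba) har, ?_,
          (hav (haB r).1).1 (Reachable.refl _)⟩
        rintro ⟨c, hc, e⟩
        exact (haB r).1 (φ.injective e ▸ hc)
    choose y hyY hyB hya using hexit
    refine ⟨y, hyY, fun r => hC ▸ hyB r, fun r => ?_, fun r s hrs h => ?_⟩
    · obtain ⟨b, hb, hba⟩ := (haB r).2
      obtain ⟨q, -⟩ := hya r
      exact ⟨φ b, hC ▸ Set.mem_image_of_mem φ hb,
        q.reachable.symm.trans (hopen' b hb _ hba).symm.reachable⟩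
    · rw [hC] at h
      exact hasep r s hrs ((hav (haB r).1).2 (((hya r).trans h).trans (hya s).symm))

end Vale.Agent.P151.Amenable
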