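import Mathlib
import Vale.Agent.P151.Amenable.Clusters

/-!
No percolation on an amenable Cayley graph where the two-point function vanishes at infinity.
-/

namespace Vale.Agent.P151.Amenable

open MeasureTheory SimpleGraph
open Vale.Agent.P165 (perc openGraph conn toInf allOpen real_allOpen openGraph_map_iso
  measurableSet_conn measurableSet_toInf measurableSet_allOpen perc_map real_toInf_map
  countable_of_connected)
open scoped ENNReal

open Classical in
/-- Right Følner condition. -/
def Folner (Γ : Type) [Group Γ] : Prop :=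
  ∀ K : Finset Γ, ∀ ε : ℝ, 0 < ε → ∃ F : Finset Γ, F.Nonempty ∧
    ∀ k ∈ K, ((F.filter fun x => x * k ∉ F).card : ℝ) ≤ ε * F.card

variable {Γ : Type} [Group Γ] (H : SimpleGraph Γ) {p : unitInterval}

/-- Left translation. -/
def shift (hinv : ∀ g x y : Γ, H.Adj (g * x) (g * y) ↔ H.Adj x y) (g : Γ) : H ≃g H :=
  { toEquiv := Equiv.mulLeft g
    map_rel_iff' := fun {a b} => hinv g a b }

variable {H} (hinv : ∀ g x y : Γ, H.Adj (g * x) (g * y) ↔ H.Adj x y)

/-- Many disjoint translates inside a finite set. -/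
lemma exists_packing (B : Finset Γ) (hB : B.Nonempty) (F : Finset Γ) :
    ∃ G : Finset Γ, G ⊆ F ∧ (∀ g ∈ G, ∀ g' ∈ G, g ≠ g' → ∀ b ∈ B, ∀ b' ∈ B, g * b ≠ g' * b') ∧
      F.card ≤ G.card * (B.card * B.card) := by
  classical
  let ok : Finset Γ → Prop := fun G =>
    ∀ g ∈ G, ∀ g' ∈ G, g ≠ g' → ∀ b ∈ B, ∀ b' ∈ B, g * b ≠ g' * b'
  obtain ⟨G, hG, hmax⟩ := (F.powerset.filter ok).exists_max_image Finset.card
    ⟨∅, Finset.mem_filter.2 ⟨Finset.empty_mem_powerset F, fun g hg => absurd hg (Finset.notMem_empty g)⟩⟩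
  obtain ⟨hGF, hok⟩ := Finset.mem_filter.1 hG
  rw [Finset.mem_powerset] at hGF
  refine ⟨G, hGF, hok, ?_⟩
  have hcov : F ⊆ (G ×ˢ (B ×ˢ B)).image fun t => t.1 * t.2.1 * t.2.2⁻¹ := by
    intro x hx
    by_contra hn
    have hfar : ∀ g ∈ G, ∀ b ∈ B, ∀ b' ∈ B, g * b ≠ x * b' := fun g hg b hb b' hb' e =>
      hn (Finset.mem_image.2 ⟨(g, b, b'), by simp [hg, hb, hb'], by rw [e, mul_inv_cancel_right]⟩)
    have hxG : x ∉ G := fun h => by
      obtain ⟨b, hb⟩ := hB
      exact hfar x h b hb b hb rfl
    have := hmax (insert x G) (Finset.mem_filter.2 ⟨Finset.mem_powerset.2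
      (Finset.insert_subset hx hGF), fun g hg g' hg' hne b hb b' hb' => by
        rcases Finset.mem_insert.1 hg with e | h1 <;> rcases Finset.mem_insert.1 hg' with e' | h2
        · exact absurd (e.trans e'.symm) hne
        · rw [e]; exact (hfar g' h2 b' hb' b hb).symm
        · rw [e']; exact hfar g h1 b hb b' hb'
        · exact hok g h1 g' h2 hne b hb b' hb'⟩)
    rw [Finset.card_insert_of_notMem hxG] at this
    omega
  calc F.card ≤ _ := Finset.card_le_card hcov
    _ ≤ (G ×ˢ (B ×ˢ B)).card := Finset.card_image_le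
    _ = _ := by rw [Finset.card_product, Finset.card_product]

include hinv in
/-- The blocks are at most as many as the boundary, so their density vanishes. -/
lemma real_block_le [Countable Γ] [H.LocallyFinite] (hfol : Folner Γ) (B : Finset Γ)
    (hB : Piece H (B : Set Γ)) (E : Finset (Sym2 Γ))
    (hE : ∀ b ∈ B, ∀ u, H.Adj b u → s(b, u) ∈ E) :
    (perc Γ p).real (block H B E) = 0 := by
  classical
  refine le_antisymm (le_of_forall_gt_imp_ge_of_dense fun t ht => ?_) measureReal_nonneg
  have hBne : B.Nonempty := by simpa using hB.1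
  let S : Finset Γ := H.neighborFinset 1
  set c : ℝ := (B.card : ℝ) * B.card * (S.card + 1) with hc
  have hc0 : 0 ≤ c := by positivity
  set ε : ℝ := min (1 / (2 * B.card + 1)) (t / (2 * c + 1)) with hε
  have hε0 : 0 < ε := lt_min (by positivity) (div_pos ht (by positivity))
  obtain ⟨F, hFne, hF⟩ := hfol (B ∪ S) ε hε0
  let F₀ := F.filter fun x => ∀ b ∈ B, x * b ∈ F
  let Y : Finset Γ := S.biUnion fun s => (F.filter fun x => x * s ∉ F).image (· * s)
  have hF₀ : (F.card : ℝ) * (1 - B.card * ε) ≤ F₀.card := by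
    have hsub : F \ F₀ ⊆ B.biUnion fun b => F.filter fun x => x * b ∉ F := by
      intro x hx
      simp only [Finset.mem_sdiff, F₀, Finset.mem_filter, not_and, not_forall] at hx
      obtain ⟨b, hb, hxb⟩ := hx.2 hx.1
      exact Finset.mem_biUnion.2 ⟨b, hb, Finset.mem_filter.2 ⟨hx.1, hxb⟩⟩
    have h1 : ((F \ F₀).card : ℝ) ≤ B.card * (ε * F.card) := by
      calc ((F \ F₀).card : ℝ) ≤ ∑ b ∈ B, ((F.filter fun x => x * b ∉ F).card : ℝ) := by
            exact_mod_cast (Finset.card_le_card hsub).trans Finset.card_biUnion_le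
        _ ≤ ∑ b ∈ B, ε * F.card := Finset.sum_le_sum fun b hb => hF b (Finset.mem_union_left _ hb)
        _ = _ := by rw [Finset.sum_const, nsmul_eq_mul]
    have h2 : (F₀.card : ℝ) + (F \ F₀).card = F.card := by
      exact_mod_cast (add_comm _ _).trans (Finset.card_sdiff_add_card_eq_card (Finset.filter_subset _ F))
    nlinarith
  have hYc : (Y.card : ℝ) ≤ S.card * (ε * F.card) := by
    calc (Y.card : ℝ) ≤ ∑ s ∈ S, ((F.filter fun x => x * s ∉ F).card : ℝ) := by
          exact_mod_cast Finset.card_biUnion_le.trans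
            (Finset.sum_le_sum fun s _ => Finset.card_image_le)
      _ ≤ ∑ s ∈ S, ε * F.card := Finset.sum_le_sum fun s hs => hF s (Finset.mem_union_right _ hs)
      _ = _ := by rw [Finset.sum_const, nsmul_eq_mul]
  obtain ⟨G, hGF, hok, hGc⟩ := exists_packing B hBne F₀
  let ev : Γ → Set (Sym2 Γ → Bool) := fun g =>
    (fun ω e => ω (Sym2.map (shift H hinv g) e)) ⁻¹' block H B E
  have hmblock : MeasurableSet (block H B E) :=
    (measurable_off B (measurableSet_branch H B)).inter (measurableSet_allOpen E)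
  have hmap : ∀ g : Γ, Measurable fun (ω : Sym2 Γ → Bool) e => ω (Sym2.map (shift H hinv g) e) :=
    fun g => measurable_pi_lambda _ fun e => measurable_pi_apply _
  have hev : ∀ g, perc Γ p (ev g) = perc Γ p (block H B E) := fun g => by
    conv_rhs => rw [← perc_map (shift H hinv g).toEquiv]
    exact (Measure.map_apply (hmap g) hmblock).symm
  have hpt : ∀ ω, ∑ g ∈ G, (ev g).indicator (1 : (Sym2 Γ → Bool) → ℝ≥0∞) ω ≤ Y.card := by
    intro ω
    have hsum : ∑ g ∈ G, (ev g).indicator (1 : (Sym2 Γ → Bool) → ℝ≥0∞) ω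
        = ((G.filter fun g => ω ∈ ev g).card : ℝ≥0∞) := by
      rw [Finset.natCast_card_filter]
      exact Finset.sum_congr rfl fun g _ => by simp [Set.indicator]
    rw [hsum, Nat.cast_le]
    have key : ∀ g ∈ G.filter (fun g => ω ∈ ev g),
        Piece (openGraph H ω) ((shift H hinv g) '' (B : Set Γ)) ∧
          Tri (openGraph H ω) (fun g => (shift H hinv g) '' (B : Set Γ)) Y g := by
      intro g hg
      obtain ⟨hgG, hgω⟩ := Finset.mem_filter.1 hg
      refine tri_of_block hE (shift H hinv g) hgω (F := F)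
        (fun b hb => (Finset.mem_filter.1 (hGF hgG)).2 b hb) (fun z hz u hzu hu => ?_) hB (fun g => (shift H hinv g) '' (B : Set Γ)) g rfl
      refine Finset.mem_biUnion.2 ⟨z⁻¹ * u, ?_, Finset.mem_image.2 ⟨z, ?_, ?_⟩⟩
      · rw [mem_neighborFinset, ← hinv z]
        simpa using hzu
      · exact Finset.mem_filter.2 ⟨hz, by simpa using hu⟩
      · simp
    refine card_tri_le (openGraph H ω) (fun g => (shift H hinv g) '' (B : Set Γ)) Y _
      (fun g hg => (key g hg).1) ?_ (fun g hg => (key g hg).2)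
    intro g hg g' hg' hne
    refine Set.disjoint_left.2 ?_
    rintro _ ⟨b, hb, rfl⟩ ⟨b', hb', e⟩
    exact hok g' (Finset.mem_filter.1 hg').1 g (Finset.mem_filter.1 hg).1 hne.symm b' hb' b hb e
  have hint : (G.card : ℝ≥0∞) * perc Γ p (block H B E) ≤ Y.card := by
    calc (G.card : ℝ≥0∞) * perc Γ p (block H B E)
        = ∫⁻ ω, ∑ g ∈ G, (ev g).indicator (1 : (Sym2 Γ → Bool) → ℝ≥0∞) ω ∂perc Γ p := by
          rw [lintegral_finsetSum _ fun g _ => measurable_one.indicator (hmap g hmblock),
            Finset.sum_congr rfl fun g _ => lintegral_indicator_one (hmap g hmblock)]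
          exact ((Finset.sum_congr rfl fun g _ => hev g).trans (by rw [Finset.sum_const, nsmul_eq_mul])).symm
      _ ≤ ∫⁻ _, (Y.card : ℝ≥0∞) ∂perc Γ p := lintegral_mono hpt
      _ = _ := by simp
  have hint' : (G.card : ℝ) * (perc Γ p).real (block H B E) ≤ Y.card := by
    have := ENNReal.toReal_mono (by simp) hint
    rwa [ENNReal.toReal_mul, ENNReal.toReal_natCast, ENNReal.toReal_natCast] at this
  have hFpos : (0 : ℝ) < F.card := by exact_mod_cast hFne.card_pos
  have hBpos : (0 : ℝ) < B.card := by exact_mod_cast hBne.card_pos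
  have hG' : (F₀.card : ℝ) ≤ G.card * (B.card * B.card) := by exact_mod_cast hGc
  have hhalf : 1 / 2 ≤ 1 - (B.card : ℝ) * ε := by
    have : (B.card : ℝ) * ε ≤ B.card * (1 / (2 * B.card + 1)) :=
      mul_le_mul_of_nonneg_left (min_le_left _ _) hBpos.le
    have h' : (B.card : ℝ) * (1 / (2 * B.card + 1)) ≤ 1 / 2 := by
      rw [mul_one_div, div_le_div_iff₀ (by positivity) two_pos]
      linarith
    linarith
  have hm : 0 ≤ (perc Γ p).real (block H B E) := measureReal_nonneg
  set m := (perc Γ p).real (block H B E)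
  have h3 : (F.card : ℝ) * (1 / 2) * m ≤ B.card * B.card * (S.card * (ε * F.card)) :=
    calc (F.card : ℝ) * (1 / 2) * m ≤ F.card * (1 - B.card * ε) * m := by gcongr
      _ ≤ F₀.card * m := by gcongr
      _ ≤ G.card * (B.card * B.card) * m := by gcongr
      _ = B.card * B.card * (G.card * m) := by ring
      _ ≤ B.card * B.card * Y.card := by gcongr
      _ ≤ _ := by gcongr
  have h4 : m ≤ 2 * c * ε := by
    have h5 : (B.card : ℝ) * B.card * (S.card * (ε * F.card)) ≤ c * ε * F.card := by
      rw [hc]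
      nlinarith [mul_pos (mul_pos hBpos hBpos) (mul_pos hε0 hFpos)]
    nlinarith
  calc m ≤ 2 * c * ε := h4
    _ ≤ 2 * c * (t / (2 * c + 1)) := mul_le_mul_of_nonneg_left (min_le_right _ _) (by positivity)
    _ ≤ t := by
      rw [← mul_div_assoc, div_le_iff₀ (by positivity)]
      nlinarith

include hinv in
/-- Almost surely there are at most two infinite clusters. -/
lemma three_null [Countable Γ] [H.LocallyFinite] (hc : H.Connected) (hfol : Folner Γ)
    (hp : 0 < (p : ℝ)) : perc Γ p (three H) = 0 := by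
  classical
  refine measure_mono_null (three_subset hc) ((measure_iUnion_null_iff).2 fun B =>
    (measure_iUnion_null_iff).2 fun hB => ?_)
  let E : Finset (Sym2 Γ) := B.biUnion fun b => (H.neighborFinset b).image fun u => s(b, u)
  have h := real_block_le (p := p) hinv hfol B hB E fun b hb u hu =>
    Finset.mem_biUnion.2 ⟨b, hb, Finset.mem_image.2 ⟨u, by simpa using hu, rfl⟩⟩
  rw [block, real_off_inter_allOpen B (measurableSet_branch H B) E (fun e he => ?_)] at h
  · exact (measureReal_eq_zero_iff (measure_ne_top _ _)).1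
      ((mul_eq_zero.1 h).resolve_right (pow_pos hp _).ne')
  · obtain ⟨b, hb, he⟩ := Finset.mem_biUnion.1 he
    obtain ⟨u, -, rfl⟩ := Finset.mem_image.1 he
    exact ⟨b, Sym2.mem_mk_left b u, hb⟩

include hinv in
lemma real_conn_shift [H.LocallyFinite] (g x y : Γ) :
    (perc Γ p).real (conn H (g * x) (g * y)) = (perc Γ p).real (conn H x y) := by
  conv_rhs => rw [← perc_map (shift H hinv g).toEquiv]
  rw [map_measureReal_apply (measurable_pi_lambda _ fun e => measurable_pi_apply _)
    (measurableSet_conn x y)]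
  congr 1
  ext ω
  exact (openGraph_map_iso (shift H hinv g) ω x y).symm

include hinv in
/-- Points with small mutual two-point function. -/
lemma exists_spread [H.LocallyFinite] [Infinite Γ] {δ : ℝ}
    (hδ : {x : Γ | δ ≤ (perc Γ p).real (conn H 1 x)}.Finite) :
    ∀ k : ℕ, ∃ P : Finset Γ, P.card = k ∧
      ∀ x ∈ P, ∀ y ∈ P, x ≠ y → (perc Γ p).real (conn H x y) ≤ δ := by
  classical
  intro k
  induction k with
  | zero => exact ⟨∅, rfl, by simp⟩
  | succ k ih =>
    obtain ⟨P, hPc, hP⟩ := ih
    obtain ⟨z, hz⟩ := Infinite.exists_notMem_finset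
      (P ∪ P.biUnion fun x => hδ.toFinset.image (x * ·))
    simp only [Finset.mem_union, Finset.mem_biUnion, Finset.mem_image, Set.Finite.mem_toFinset,
      Set.mem_ofPred_eq, not_or, not_exists, not_and] at hz
    have hlt : ∀ x ∈ P, (perc Γ p).real (conn H x z) ≤ δ := fun x hx => by
      have h := real_conn_shift (p := p) hinv x 1 (x⁻¹ * z)
      rw [mul_one, mul_inv_cancel_left] at h
      rw [h]
      exact le_of_not_ge fun h' => hz.2 x hx _ h' (mul_inv_cancel_left x z)
    have hsymm : ∀ x y : Γ, conn H x y = conn H y x := fun x y =>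
      Set.ext fun ω => ⟨Reachable.symm, Reachable.symm⟩
    refine ⟨insert z P, by rw [Finset.card_insert_of_notMem hz.1, hPc], fun x hx y hy hne => ?_⟩
    rcases Finset.mem_insert.1 hx with e | h1 <;> rcases Finset.mem_insert.1 hy with e' | h2
    · exact absurd (e.trans e'.symm) hne
    · rw [e, hsymm]; exact hlt y h2
    · rw [e']; exact hlt x h1
    · exact hP x h1 y h2 hne

include hinv in
/-- If the two-point function vanishes at infinity, the origin does not percolate. -/
theorem real_toInf_eq_zero [H.LocallyFinite] [Infinite Γ] (hc : H.Connected) (hfol : Folner Γ)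
    (hdec : ∀ δ : ℝ, 0 < δ → {x : Γ | δ ≤ (perc Γ p).real (conn H 1 x)}.Finite) :
    (perc Γ p).real (toInf H 1) = 0 := by
  classical
  have : Countable Γ := countable_of_connected hc
  set θ := (perc Γ p).real (toInf H 1) with hθ
  rcases eq_or_lt_of_le (show (0 : ℝ) ≤ p from p.2.1) with hp | hp
  · refine (measureReal_eq_zero_iff (measure_ne_top _ _)).2 ?_
    refine measure_mono_null (t := ⋃ e : Sym2 Γ, allOpen {e}) ?_
      (measure_iUnion_null_iff.2 fun e => ?_)
    · intro ω hω
      obtain ⟨u, hu, hu1⟩ := hω.exists_notMem_finset {1}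
      obtain ⟨q⟩ := hu
      cases q with
      | nil => simp at hu1
      | @cons _ v _ h q => exact Set.mem_iUnion.2 ⟨s(1, v), by simpa [allOpen] using h.2⟩
    · refine (measureReal_eq_zero_iff (measure_ne_top _ _)).1 ?_
      rw [real_allOpen]
      simp [← hp]
  by_contra hne
  have hθ0 : 0 < θ := lt_of_le_of_ne measureReal_nonneg (Ne.symm hne)
  obtain ⟨k, hk⟩ := exists_nat_gt (2 / θ)
  have hk0 : (0 : ℝ) < k := lt_trans (by positivity) hk
  set δ : ℝ := (k * θ - 2) / (2 * (k * k * k + 1)) with hδ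
  have hkθ : 2 < k * θ := by rwa [div_lt_iff₀ hθ0] at hk
  have hδ0 : 0 < δ := div_pos (by linarith) (by positivity)
  obtain ⟨P, hPc, hP⟩ := exists_spread hinv (hdec δ hδ0) k
  let U : Set (Sym2 Γ → Bool) :=
    three H ∪ ⋃ t ∈ (P ×ˢ P).filter (fun t => t.1 ≠ t.2), conn H t.1 t.2
  have hUm : MeasurableSet U := (measurableSet_three H).union
    (Finset.measurableSet_biUnion _ fun t _ => measurableSet_conn _ _)
  have hpt : ∀ ω, ∑ x ∈ P, (toInf H x).indicator (1 : (Sym2 Γ → Bool) → ℝ≥0∞) ω
      ≤ 2 + (k : ℝ≥0∞) * U.indicator 1 ω := by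
    intro ω
    have hsum : ∑ x ∈ P, (toInf H x).indicator (1 : (Sym2 Γ → Bool) → ℝ≥0∞) ω
        = ((P.filter fun x => ω ∈ toInf H x).card : ℝ≥0∞) := by
      rw [Finset.natCast_card_filter]
      exact Finset.sum_congr rfl fun g _ => by simp [Set.indicator]
    rw [hsum]
    by_cases hU : ω ∈ U
    · rw [Set.indicator_of_mem hU, Pi.one_apply, mul_one]
      refine le_trans ?_ le_add_self
      exact_mod_cast hPc ▸ Finset.card_filter_le _ _
    · refine le_trans ?_ le_self_add
      suffices (P.filter fun x => ω ∈ toInf H x).card ≤ 2 by exact_mod_cast this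
      by_contra h3
      obtain ⟨a, b, c, ha, hb, hc', hab, hac, hbc⟩ := Finset.two_lt_card_iff.1 (not_le.1 h3)
      simp only [Finset.mem_filter] at ha hb hc'
      refine hU (Or.inl (Set.mem_iUnion.2 ⟨![a, b, c], ?_⟩))
      have hno : ∀ x ∈ P, ∀ y ∈ P, x ≠ y → ω ∉ conn H x y := fun x hx y hy hxy h =>
        hU (Or.inr (Set.mem_biUnion (x := (x, y))
          (Finset.mem_filter.2 ⟨Finset.mem_product.2 ⟨hx, hy⟩, hxy⟩) h))
      simp only [Set.mem_inter_iff, Set.mem_iInter, Set.mem_compl_iff]
      refine ⟨fun r => ?_, fun r s hrs => ?_⟩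
      · fin_cases r
        exacts [ha.2, hb.2, hc'.2]
      · fin_cases r <;> fin_cases s <;> simp at hrs ⊢
        exacts [hno a ha.1 b hb.1 hab, hno a ha.1 c hc'.1 hac, hno b hb.1 a ha.1 hab.symm,
          hno b hb.1 c hc'.1 hbc, hno c hc'.1 a ha.1 hac.symm, hno c hc'.1 b hb.1 hbc.symm]
  have hU : (perc Γ p).real U ≤ k * k * δ := by
    refine le_trans (measureReal_union_le _ _) ?_
    rw [show (perc Γ p).real (three H) = 0 by rw [measureReal_def, three_null hinv hc hfol hp]; rfl,
      zero_add]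
    refine (measureReal_biUnion_finset_le _ _).trans ((Finset.sum_le_sum fun t ht => ?_).trans
      (b := ∑ t ∈ (P ×ˢ P).filter (fun t => t.1 ≠ t.2), δ) ?_)
    · obtain ⟨ht, hne⟩ := Finset.mem_filter.1 ht
      exact hP _ (Finset.mem_product.1 ht).1 _ (Finset.mem_product.1 ht).2 hne
    · rw [Finset.sum_const, nsmul_eq_mul]
      refine mul_le_mul_of_nonneg_right ?_ hδ0.le
      have := (Finset.card_filter_le (P ×ˢ P) fun t => t.1 ≠ t.2).trans_eq
        (by rw [Finset.card_product, hPc] : (P ×ˢ P).card = k * k)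
      exact_mod_cast this
  have hint : ∑ x ∈ P, perc Γ p (toInf H x) ≤ 2 + (k : ℝ≥0∞) * perc Γ p U := by
    calc ∑ x ∈ P, perc Γ p (toInf H x)
        = ∫⁻ ω, ∑ x ∈ P, (toInf H x).indicator (1 : (Sym2 Γ → Bool) → ℝ≥0∞) ω ∂perc Γ p := by
          rw [lintegral_finsetSum _ fun x _ => measurable_one.indicator (measurableSet_toInf x),
            Finset.sum_congr rfl fun x _ => lintegral_indicator_one (measurableSet_toInf x)]
      _ ≤ ∫⁻ ω, 2 + (k : ℝ≥0∞) * U.indicator 1 ω ∂perc Γ p := lintegral_mono hpt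
      _ = _ := by
          rw [lintegral_add_left measurable_const, lintegral_const_mul _
            (measurable_one.indicator hUm), lintegral_indicator_one hUm]
          simp
  have hsum : (k : ℝ) * θ ≤ 2 + k * (perc Γ p).real U := by
    have h := ENNReal.toReal_mono (by simp [ENNReal.mul_eq_top]) hint
    rw [ENNReal.toReal_sum (by simp), ENNReal.toReal_add (by simp) (by simp [ENNReal.mul_eq_top]),
      ENNReal.toReal_mul] at h
    have hx : ∀ x ∈ P, (perc Γ p (toInf H x)).toReal = θ := fun x _ => by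
      have := real_toInf_map (p := p) (shift H hinv x) 1
      rw [← measureReal_def]
      rwa [show (shift H hinv x) 1 = x from mul_one x] at this
    rw [Finset.sum_congr rfl hx, Finset.sum_const, hPc, nsmul_eq_mul] at h
    simpa [measureReal_def] using h
  have : δ * (2 * (k * k * k + 1)) = k * θ - 2 := by
    rw [hδ]; field_simp
  nlinarith [mul_le_mul_of_nonneg_left hU hk0.le]

include hinv in
/-- If the two-point function vanishes at infinity, there is no infinite cluster. -/
theorem no_infinite_cluster [H.LocallyFinite] [Infinite Γ] (hc : H.Connected) (hfol : Folner Γ)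
    (hdec : ∀ δ : ℝ, 0 < δ → {x : Γ | δ ≤ (perc Γ p).real (conn H 1 x)}.Finite) :
    perc Γ p {ω | ∃ x, {y | (openGraph H ω).Reachable x y}.Infinite} = 0 := by
  have : Countable Γ := countable_of_connected hc
  have : {ω | ∃ x, {y | (openGraph H ω).Reachable x y}.Infinite} = ⋃ x, toInf H x := by
    ext ω; simp [toInf]
  rw [this]
  refine measure_iUnion_null fun x => (measureReal_eq_zero_iff (measure_ne_top _ _)).1 ?_
  have h := real_toInf_map (p := p) (shift H hinv x) 1
  rw [real_toInf_eq_zero hinv hc hfol hdec] at h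
  rwa [show (shift H hinv x) 1 = x from mul_one x] at h

end Vale.Agent.P151.Amenable
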